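import Vale.Agent.P178.QAux

/-! P178: Quillen's K-groups via the Q-construction. -/

namespace Vale.Agent.P178

open CategoryTheory TensorProduct Opposite Simplicial

/-- Objects of Quillen's category `Q P(R)`: finitely generated projective `R`-modules. -/
structure QP (R : Type) [CommRing R] : Type 1 where
  M : Type
  [add : AddCommGroup M]
  [mod : Module R M]
  [fin : Module.Finite R M]
  [proj : Module.Projective R M]

attribute [instance] QP.add QP.mod QP.fin QP.proj

section

variable {R : Type} [CommRing R]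

/-- The underlying linear relations. -/
abbrev QRel (X Y : QP R) : Type := Submodule R (X.M × Y.M)

/-- Morphisms of the Q-construction. -/
abbrev QHom (X Y : QP R) : Type := {Γ : QRel X Y // IsQ Γ}

/-- The diagonal. -/
def QRel.diag (X : QP R) : QRel X X := LinearMap.graph LinearMap.id

theorem QRel.isQ_diag (X : QP R) : IsQ (QRel.diag X) := P178.isQ_id

/-- Identity morphism. -/
def QHom.ident (X : QP R) : QHom X X := ⟨QRel.diag X, QRel.isQ_diag X⟩

theorem QHom.isQ_comp {X Y Z : QP R} (f : QHom X Y) (g : QHom Y Z) : IsQ (relComp f.1 g.1) :=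
  f.2.comp g.2

/-- Composition. -/
def QHom.cmp {X Y Z : QP R} (f : QHom X Y) (g : QHom Y Z) : QHom X Z :=
  ⟨relComp f.1 g.1, QHom.isQ_comp f g⟩

theorem QHom.unitL {X Y : QP R} (f : QHom X Y) : (QHom.ident X).cmp f = f :=
  Subtype.ext (relComp_id_left f.1)

theorem QHom.unitR {X Y : QP R} (f : QHom X Y) : f.cmp (QHom.ident Y) = f :=
  Subtype.ext (relComp_id_right f.1)

theorem QHom.assoc3 {W X Y Z : QP R} (f : QHom W X) (g : QHom X Y) (h : QHom Y Z) :
    (f.cmp g).cmp h = f.cmp (g.cmp h) :=
  Subtype.ext (relComp_assoc f.1 g.1 h.1)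

/-- Quillen's category `Q P(R)`. -/
instance QP.category (R : Type) [CommRing R] : Category.{0} (QP R) where
  Hom := QHom
  id := QHom.ident
  comp := QHom.cmp
  id_comp := QHom.unitL
  comp_id := QHom.unitR
  assoc := QHom.assoc3

variable (S : Type) [CommRing S] [Algebra R S]

/-- Base change of a module. -/
noncomputable def QP.bcObj (X : QP R) : QP S := ⟨S ⊗[R] X.M⟩

/-- Base change of a relation between modules. -/
noncomputable def QRel.bcRel {X Y : QP R} (Γ : QRel X Y) : QRel (X.bcObj S) (Y.bcObj S) := relBC S Γ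

theorem QHom.isQ_bc {X Y : QP R} (f : QHom X Y) : IsQ (QRel.bcRel S f.1) := f.2.bc S

/-- Base change of a morphism. -/
noncomputable def QHom.bcMor {X Y : QP R} (f : QHom X Y) : QHom (X.bcObj S) (Y.bcObj S) :=
  ⟨QRel.bcRel S f.1, QHom.isQ_bc S f⟩

theorem QHom.bcHom_id (X : QP R) : (QHom.ident X).bcMor S = QHom.ident (X.bcObj S) :=
  Subtype.ext (relBC_id S)

theorem QHom.bcHom_comp {X Y Z : QP R} (f : QHom X Y) (g : QHom Y Z) :
    (f.cmp g).bcMor S = (f.bcMor S).cmp (g.bcMor S) :=
  Subtype.ext (relBC_comp S f.2 g.2)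

end

/-- The functor `Q P(R) ⥤ Q P(S)` induced by `S ⊗[R] -`. -/
noncomputable def QP.bc (R S : Type) [CommRing R] [CommRing S] [Algebra R S] : QP R ⥤ QP S where
  obj := QP.bcObj S
  map := QHom.bcMor S
  map_id := QHom.bcHom_id S
  map_comp := QHom.bcHom_comp S

universe v u

/-- The classifying space `|N C|` of a category. -/
noncomputable def BC (C : Type u) [Category.{v} C] : TopCat.{max u v} := SSet.toTop.obj (nerve C)

/-- The characteristic map `Δⁿ → |N C|` of an `n`-simplex of the nerve. -/
noncomputable def simplexMap {C : Type u} [Category.{v} C] {n : ℕ} (σ : ComposableArrows C n) :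
    ContinuousMap (stdSimplex ℝ (Fin (n + 1))) (BC C) :=
  TopCat.toSSetObjEquiv (BC C) (op ⦋n⦌) ((sSetTopAdj.unit.app (nerve C)).app (op ⦋n⦌) σ)

/-- The vertex of `|N C|` given by an object. -/
noncomputable def objPt {C : Type u} [Category.{v} C] (X : C) : BC C :=
  simplexMap (ComposableArrows.mk₀ X) (stdSimplex.vertex 0)

/-- The map of classifying spaces induced by a functor. -/
noncomputable def BMap {C D : Type u} [Category.{v} C] [Category.{v} D] (F : C ⥤ D) :
    ContinuousMap (BC C) (BC D) :=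
  (SSet.toTop.map (nerveMap F)).hom

theorem BMap_simplexMap {C D : Type u} [Category.{v} C] [Category.{v} D] (F : C ⥤ D) {n : ℕ}
    (σ : ComposableArrows C n) (t : stdSimplex ℝ (Fin (n + 1))) :
    BMap F (simplexMap σ t) = simplexMap (σ ⋙ F) t := by
  have h := congrArg (fun φ => TopCat.toSSetObjEquiv (BC D) (op ⦋n⦌) (φ.app (op ⦋n⦌) σ) t)
    (sSetTopAdj.unit.naturality (nerveMap F))
  exact h.symm

theorem BMap_vertex {C D : Type u} [Category.{v} C] [Category.{v} D] (F : C ⥤ D) (X : C) :
    BMap F (objPt X) = objPt (F.obj X) := by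
  rw [objPt, BMap_simplexMap]
  exact congrArg (fun σ => simplexMap σ (stdSimplex.vertex 0)) (ComposableArrows.ext₀ rfl)

/-- Quillen's `K_n(R) = π_{n+1}(B Q P(R), 0)`, the base point being a zero module `Z`. -/
def K (n : ℕ) (R : Type) [CommRing R] (Z : QP R) : Type 1 :=
  HomotopyGroup.Pi (n + 1) (BC (QP R)) (objPt Z)

/-- The map of homotopy groups induced by a based map. -/
def piMap {X Y : Type u} [TopologicalSpace X] [TopologicalSpace Y] (f : ContinuousMap X Y) {x : X} {y : Y}
    (h : f x = y) (n : ℕ) : HomotopyGroup.Pi n X x → HomotopyGroup.Pi n Y y :=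
  Quotient.map (fun a => ⟨ContinuousMap.comp f a.1, fun z hz => (congrArg f (a.2 z hz)).trans h⟩)
    (fun _ _ h => ContinuousMap.HomotopicRel.comp_continuousMap h f)

/-- The map `K_n(R) → K_n(S)` induced by `S ⊗[R] -`. -/
noncomputable def Kmap (n : ℕ) (R S : Type) [CommRing R] [CommRing S] [Algebra R S] (Z : QP R) :
    K n R Z → K n S ((QP.bc R S).obj Z) :=
  piMap (BMap (QP.bc R S)) (BMap_vertex _ Z) (n + 1)

end Vale.Agent.P178
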